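import Vale.Agent.P247.H74.RPFIN.Asm
import Vale.Agent.P247.H526.ASM
import Vale.Agent.P247.H526.LA2
import Vale.Agent.P247.H575.BX
import Vale.Agent.P247.H743.JD
import Vale.Agent.P247.H683.Mass
import Vale.Agent.P247.H264.GB
import Vale.Agent.P247.H264.Mass
import Vale.Agent.P247.H264.Torx
import Vale.Agent.P247.H647.S2
import Vale.Agent.P247.H931.S1.Main
import Vale.Agent.P247.H350.E3.Main
import Vale.Agent.P247.H880.Coc
import Vale.Agent.P247.H447.E5.Main
import Vale.Agent.P247.H663.Z
import Vale.Agent.P247.H620.LFin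
import Vale.Agent.P247.H899.MGX
import Vale.Agent.P247.H899.Vrt3
import Vale.Agent.P247.H667.IcurThm
import Vale.Agent.P247.H710.VF2
import Vale.Agent.P247.H383.VF.VF2
import Vale.Agent.P247.H520.Trv
import Vale.Agent.P247.H690.HD.Min
import Vale.Agent.P247.H690.HD.Lims
import Vale.Agent.P247.H306.HodD
import Vale.Agent.P247.H306.HodWeyl
import Vale.Agent.P247.H821.H3Main
import Vale.Agent.P247.H821.BrsLem
import Vale.Agent.P247.H821.Repar

/-!
# P247: Q1 for the torus, from the statements still open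
-/

open scoped ContDiff Topology

noncomputable section

namespace Vale.Agent.P247.H74.Fin2

open Vale.Agent.P247.H74 Vale.Agent.P247.H574

/-! ### Layer A -/

theorem S1 : H647.S1_statement :=
  H931.S1.s1_of (H350.E3.e34 H880.Co.COER H880.Co.RNG) H447.E5.E5

theorem HIGGS : HIGGS_statement := H647.higgs S1

/-! ### Layer B -/

theorem BX : BX_statement := H575.BX H743.JD

theorem BXS : H683.BXS_statement := by
  intro D K δ hK hδ
  obtain ⟨C, hC, ε₀, hε₀, h⟩ := BX D K δ hK hδ
  refine ⟨C, hC, ε₀, hε₀, fun ε h1 h2 x₀ v w hv hw hvw => ?_⟩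
  obtain ⟨Ξ, h3, h4, h5, h6, h7⟩ := h ε h1 h2 x₀ v w hv hw hvw
  exact ⟨Ξ, h3, fun q hq => (h4 q hq).2, h6⟩

theorem CO : CO_statement := H683.CO BXS

theorem GB : GB_statement := H264.GB BX CO

theorem LS_of (hPUI : PUI_statement) : LS_statement :=
  H620.LSX_thm BX GB H899.MGX hPUI

/-! ### Layer C -/

theorem HODGE : HODGE_statement :=
  H306.HODGEX H690.HD.MIN H306.weyl H690.HD.LIMS H821.H3 H306.gen H821.RECENTER H821.REPAR

theorem TOR_of (hLW : H58.LW.LW_statement) : TOR_statement :=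
  H264.TORX HODGE (H710.COUNTX2 H264.MASS H520.TRV H383.VF.VF2 hLW) H663.Z

/-- The whole theorem from the remaining packages. -/
theorem Q1T4_of (hPUI : PUI_statement) (hLW : H58.LW.LW_statement) : Q1T4_statement :=
  H526.ASM HIGGS H667.ICUR (LS_of hPUI) (TOR_of hLW) H526.LA2 RPFIN.OneTorus

end Vale.Agent.P247.H74.Fin2
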