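import Vale.Agent.P247.H74.Fin2.Asm
import Vale.Agent.P247.H957.Asm6
import Vale.Agent.P247.H324.MG.Top
import Vale.Agent.P247.H683.Q5
import Vale.Agent.P247.H914.OrbFin
import Vale.Agent.P247.H743.Edec
import Vale.Agent.P247.H462.Main
import Vale.Agent.P247.H58.LW.Main

/-!
# P247: Q1 for the torus
-/

namespace Vale.Agent.P247.H74.Fin2

open Vale.Agent.P247.H574

/-- Regularity of multigraphs. -/
theorem PUI : PUI_statement :=
  H957.Asm.pui (H324.CLU H683.QQ.PUIS H914.ORB) H743.E.EDEC H462.PA

/-- Every normalized hypersymplectic structure on the torus has a cohomologous deformation to a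
hyperkaehler triple. -/
theorem Q1T4 : Q1T4_statement := Q1T4_of PUI H58.LW.lw

end Vale.Agent.P247.H74.Fin2
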